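import Vale.Agent.P027M.J.All

/-! # P022 route D: inertia at a prime which divides the level exactly, and Frobenius on the new
part, on Kummer classes modulo any `m` prime to `q` -/

set_option linter.all false

open scoped MatrixGroups IntermediateField

noncomputable section

namespace Vale.Agent.P022D.I12

open NumberField Vale.Agent.P022 Vale.Agent.P022.H218.L3 Vale.Agent.P022.H231.L3
  Vale.Agent.P019P P025H373 P025H746 P025H492 P025H816 Vale.Agent.P027M Vale.Agent.P027M.M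
  Vale.Agent.P027M.TW Vale.Agent.P027M.G Vale.Agent.P027M.J Vale.Agent.P027M.J.Igu

/-- inertia at `q`, any `m` prime to `q` -/
def IGUm (X : Mdl) : Prop := ∀ (M q m : ℕ) (H : Subgroup (ZMod (M * q))ˣ), Lv M → -1 ∈ H →
  q.Prime → ¬ q ∣ M → ¬ q ∣ m → Split M q H →
  ∀ [CFF Qb (L (GH (M * q) H))] (A : Act X (M * q) H m)
  (P : Ideal (𝓞 Qb)), P.IsPrime → (q : 𝓞 Qb) ∈ P → ∀ σ, S.Inert P σ → ∀ s, IsCy (M * q) σ s →
  ∀ τ : (ZMod (M * q))ˣ, ZMod.unitsMap (dvd_mul_right M q) τ = 1 →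
  ∀ y z w, z = A.dia τ y - y → w = A.act σ z - A.dia s z → A.act σ w = w

/-- Frobenius on the new part, any `m` prime to `q` -/
def I2m (X : Mdl) : Prop := ∀ (M q m : ℕ) (hq : q.Prime) (H : Subgroup (ZMod M)ˣ), Lv M → -1 ∈ H →
  ¬ q ∣ M → ¬ q ∣ m → ∀ d, IsAL M q d → ∀ (h : GH (M * q) (up H q) ≤ GH M H)
  [CFF Qb (L (GH M H))] [CFF Qb (L (GH (M * q) (up H q)))] (A : Act X (M * q) (up H q) m)
  (nm : HA Qb (L (GH (M * q) (up H q))) m →+ HA Qb (L (GH M H)) m)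
  (W : AddMonoid.End (HA Qb (L (GH (M * q) (up H q))) m)), IsNm h nm →
  Rep (X.pb (al 1 q d none) (al_pos hq.pos d none)) W → ∀ φ, IsFrob q φ →
  ∀ u : (ZMod (M * q))ˣ, ((ZMod.unitsMap (dvd_mul_right M q) u : (ZMod M)ˣ) : ZMod M) = q →
  ∀ y, nm y = 0 → nm (W y) = 0 → ∀ z, z = A.act φ (A.act φ y) - A.dia u y →
  A.act φ (A.act φ z) = q ^ 2 • A.dia u z

theorem mid (hG : GRP) {N : ℕ} {H : Subgroup (ZMod N)ˣ} (h : Lv N) (hn : -1 ∈ H) :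
    Mid N (GH N H) :=
  ((hG N h).2.2.2.2.2.2.2 H).2.1 hn

theorem fidx (hG : GRP) {N : ℕ} {H : Subgroup (ZMod N)ˣ} (h : Lv N) (hn : -1 ∈ H) :
    (GH N H).FiniteIndex :=
  haveI := (hG N h).1
  Subgroup.finiteIndex_of_le (mid hG h hn).lo

theorem lv_mul {M q : ℕ} (h : Lv M) (hq : 0 < q) : Lv (M * q) :=
  ⟨Nat.mul_pos h.pos hq, h.four.mul_right q⟩

theorem neg_low {M q : ℕ} {H : Subgroup (ZMod (M * q))ˣ} (h : -1 ∈ H) : -1 ∈ Igu.low H :=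
  ⟨-1, h, Units.ext (by simp [ZMod.unitsMap_def])⟩

theorem ex_theta {N : ℕ} {X : Mdl} (hX : MIn X) {H H' : Subgroup (ZMod N)ˣ} {Δ : Type} [CommGroup Δ]
    {d : (ZMod N)ˣ →* Δ} (h : Lv N) (hn : -1 ∈ H) (hn' : -1 ∈ H')
    (hH : ∀ u, u ∈ H' ↔ u ∈ H ∧ d u = 1)
    (hs : ∀ δ, ∃ u ∈ H, d u = δ) (le : GH N H' ≤ GH N H) :
    letI := algL le
    IsGalois (L (GH N H)) (L (GH N H')) ∧
    ∃ θ : Δ →* (L (GH N H') ≃ₐ[L (GH N H)] L (GH N H')), Function.Bijective θ ∧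
      ∀ u ∈ H, ∀ γ, In.Dm N u γ → ∀ x, ((θ (d u) x : L (GH N H')) : FF) = X.pg γ x := by
  letI := algL le
  obtain ⟨g1, g2, g3⟩ := (hX.artin _ _ le (fidx hX.grp h hn')).2 fun γ hγ δ hδ =>
    ((hX.grp N h).2.2.2.2.2.2.2 H').2.2 γ hγ.1 δ hδ
  choose s s1 s2 using hs
  choose γ hγ using In.ex_dm h.pos.ne'
  choose σ hσ using fun δ => g3 (γ (s δ)) ((hγ _).mem.2 (s1 δ))
  have key : ∀ u ∈ H, ∀ g, In.Dm N u g → ∀ x, ((σ (d u) x : L (GH N H')) : FF) = X.pg g x := by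
    intro u hu g hg x
    have m : g * (γ (s (d u)))⁻¹ ∈ GH N H' := (hg.mul (hγ _).inv).mem.2 ((hH _).2
      ⟨H.mul_mem hu (H.inv_mem (s1 _)), by rw [map_mul, map_inv, s2, mul_inv_cancel]⟩)
    rw [hσ, ← inv_mul_cancel_right g (γ (s (d u))), In.pg_mul, In.pg_fix X m x.2]
  refine ⟨g1, MonoidHom.mk' σ fun a b => AlgEquiv.ext fun x => Subtype.ext ?_, ⟨?_, fun τ => ?_⟩,
    key⟩
  · have := key _ (H.mul_mem (s1 b) (s1 a)) _ ((hγ _).mul (hγ _)) x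
    rw [map_mul, s2, s2, mul_comm b a, In.pg_mul, ← hσ, ← hσ] at this
    exact this
  · refine (injective_iff_map_eq_one _).2 fun a ha => ?_
    have m : γ (s a) ∈ GH N H' := hX.faith.2.1 N _ (mid hX.grp h hn') _
      ((mid hX.grp h hn).hi ((hγ _).mem.2 (s1 a))) fun x hx => by
        have := hσ a ⟨x, hx⟩
        rw [show σ a = 1 from ha] at this
        exact this.symm
    rw [← s2 a]
    exact ((hH _).1 ((hγ _).mem.1 m)).2
  · obtain ⟨g, ⟨m1, u, hu, m2⟩, e⟩ := g2 τ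
    exact ⟨d u, AlgEquiv.ext fun x => Subtype.ext ((key u hu g ⟨m1, m2⟩ x).trans (e x).symm)⟩

/-- the cover by the diamonds at `q` -/
theorem cover {X : Mdl} (hX : MIn X) {M q : ℕ} {H : Subgroup (ZMod (M * q))ˣ} (hL : Lv M)
    (hn : -1 ∈ H) (hq : q.Prime) (hM : ¬ q ∣ M) (hs : Split M q H) [CFF Qb (L (GH (M * q) H))]
    [CFF Qb (L (GH (M * q) (up (Igu.low H) q)))] :
    letI := algL (le_up H)
    haveI := towerL (le_up H)
    ∃ (_ : FiniteDimensional (L (GH (M * q) (up (Igu.low H) q))) (L (GH (M * q) H)))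
      (_ : IsGalois (L (GH (M * q) (up (Igu.low H) q))) (L (GH (M * q) H))),
      Module.finrank (L (GH (M * q) (up (Igu.low H) q))) (L (GH (M * q) H)) ∣ q - 1 ∧
      IsUnr Qb (L (GH (M * q) (up (Igu.low H) q))) (L (GH (M * q) H)) ∧
      IsCyclic (L (GH (M * q) H) ≃ₐ[L (GH (M * q) (up (Igu.low H) q))] L (GH (M * q) H)) ∧
      (∀ γ ∈ GH (M * q) (up (Igu.low H) q),
        ∃ g : L (GH (M * q) H) ≃ₐ[L (GH (M * q) (up (Igu.low H) q))] L (GH (M * q) H),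
          ∀ x, ((g x : L (GH (M * q) H)) : FF) = X.pg γ x) ∧
      ∀ g : L (GH (M * q) H) ≃ₐ[L (GH (M * q) (up (Igu.low H) q))] L (GH (M * q) H),
        ∃ γ ∈ GH (M * q) (up (Igu.low H) q), ∀ x, ((g x : L (GH (M * q) H)) : FF) = X.pg γ x := by
  letI := algL (le_up H)
  haveI := towerL (le_up H)
  haveI := Fact.mk hq
  have h := lv_mul hL hq.pos
  have hc : M.Coprime q := (hq.coprime_iff_not_dvd.2 hM).symm
  have h' := neg_up (neg_low hn) q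
  let J : Subgroup (ZMod q)ˣ := H.map (ZMod.unitsMap (dvd_mul_left q M))
  let d : (ZMod (M * q))ˣ →* (ZMod q)ˣ ⧸ J :=
    (QuotientGroup.mk' J).comp (ZMod.unitsMap (dvd_mul_left q M))
  have hd : ∀ u, d u = 1 ↔ ZMod.unitsMap (dvd_mul_left q M) u ∈ J := fun u =>
    QuotientGroup.eq_one_iff _
  have hH : ∀ u, u ∈ H ↔ u ∈ up (Igu.low H) q ∧ d u = 1 := fun u =>
    ⟨fun hu => ⟨⟨u, hu, rfl⟩, (hd u).2 ⟨u, hu, rfl⟩⟩, fun ⟨⟨a, ha, e1⟩, h2⟩ => by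
      obtain ⟨b, hb, e2⟩ := (hd u).1 h2
      have := hs (b / a) (div_mem hb ha) (u / a) (by rw [map_div, e1, div_self'])
        (by rw [map_div, map_div, e2])
      simpa using mul_mem this ha⟩
  haveI fd := (hX.artin _ _ (le_up H) (fidx hX.grp h hn)).1
  have hsd : ∀ δ, ∃ u ∈ up (Igu.low H) q, d u = δ := fun δ => by
    obtain ⟨x, rfl⟩ := QuotientGroup.mk'_surjective J δ
    obtain ⟨y, y1, y2⟩ := Spl.crt_ex hc 1 x
    exact ⟨y, by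
      show ZMod.unitsMap _ y ∈ Igu.low H
      rw [y1]; exact one_mem _, congrArg (QuotientGroup.mk' J) y2⟩
  obtain ⟨g1, θ, t1, t2⟩ := ex_theta (Δ := (ZMod q)ˣ ⧸ J) (d := d) hX h h' hn hH hsd (le_up H)
  haveI := g1
  haveI : IsCyclic ((ZMod q)ˣ ⧸ J) := isCyclic_of_surjective _ (QuotientGroup.mk'_surjective J)
  refine ⟨fd, g1, ?_, ?_, isCyclic_of_surjective θ t1.2, fun γ ⟨m1, u, hu, m2⟩ =>
    ⟨θ (d u), t2 u hu γ ⟨m1, m2⟩⟩, fun g => ?_⟩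
  · rw [← IsGalois.card_aut_eq_finrank, ← Nat.card_eq_of_bijective θ t1, ← ZMod.card_units q,
      ← Nat.card_eq_fintype_card]
    exact Subgroup.card_quotient_dvd_card J
  · refine hX.unram (M * q) _ _ (le_up H) (mid hX.grp h h') (mid hX.grp h hn)
      fun γ ⟨m1, u, hu, m2⟩ ht => ⟨m1, u, (hH u).2 ⟨hu, (hd u).2 ?_⟩, m2⟩
    have a1 : ZMod.unitsMap (dvd_mul_left q M) u ^ q = 1 := In.Dm.unip (γ := γ)
      ⟨(Int.natCast_dvd_natCast.2 (dvd_mul_left q M)).trans m1, um_coe _ m2⟩ ht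
    have a2 := ZMod.units_pow_card_sub_one_eq_one q (ZMod.unitsMap (dvd_mul_left q M) u)
    have a3 : ZMod.unitsMap (dvd_mul_left q M) u = 1 := by
      rw [← a1, ← pow_mul_pow_sub _ hq.one_le, a2, pow_one, mul_one]
    rw [a3]
    exact one_mem _
  · obtain ⟨δ, rfl⟩ := t1.2 g
    obtain ⟨x, rfl⟩ := QuotientGroup.mk'_surjective J δ
    obtain ⟨y, y1, y2⟩ := Spl.crt_ex hc 1 x
    have hy : y ∈ up (Igu.low H) q := by
      show ZMod.unitsMap _ y ∈ Igu.low H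
      rw [y1]; exact one_mem _
    obtain ⟨γ, hγ⟩ := In.ex_dm h.pos.ne' y
    refine ⟨γ, hγ.mem.2 hy, fun z => ?_⟩
    rw [← t2 y hy γ hγ z, ← y2]
    rfl

/-- the curve of level `Γ₀(q)` has two components which meet in nodes -/
def NOD (X : Mdl) : Prop := ∀ (M q : ℕ) (hq : q.Prime) (H : Subgroup (ZMod M)ˣ), Lv M →
  -1 ∈ H → ¬ q ∣ M →
  ∀ (P : Ideal (𝓞 Qb)) (A : AV) (O : ValuationSubring ℂ) (w : NV (Qv A) FF), Dic q P A O w →
  ∀ γ, AL M q γ → (M : ℤ) ∣ γ 1 1 - 1 → ∀ [CFF Qb (L (GH (M * q) (up H q)))],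
  ∃ (T : L (GH (M * q) (up H q))) (_ : FiniteDimensional (Qv A)⟮T⟯ (L (GH (M * q) (up H q))))
    (v : Fin 2 → I.WW (Qv A) T) (S : Finset (I.Br (Qv A) T)), (∀ g, X.gal g T = T) ∧
    I.Full (Qv A) T ∧ I.Nodal (Qv A) T S ∧ v 0 ≠ v 1 ∧ (∀ u, ∃ i, u = v i) ∧
    (∀ b b' : I.Br (Qv A) T, b.w = b'.w → I.Glue b b' → b = b') ∧ (∀ y, (v 0).1 y = w y) ∧
    ∀ y, (v 1).1 y = w (Wq X hq.pos γ y)

theorem inr {X : Mdl} (hX : MIn X) (hE : M.EXP) (hC : CF) (hS : SHIM X) (hG : WGAL X) {M q : ℕ}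
    {H : Subgroup (ZMod (M * q))ˣ} (h : Lv (M * q)) (hn : -1 ∈ H) (hq : q.Prime)
    (hM : ¬ q ∣ M) {P : Ideal (𝓞 Qb)}
    (hP : P.IsPrime) (hl : (q : 𝓞 Qb) ∈ P) {A : AV} {O : ValuationSubring ℂ} {w : NV (Qv A) FF}
    (hD : Dic q P A O w) {γ : SL(2, ℤ)} (hγ : AL M q γ) {K₀ : Type} [Field K₀]
    [Algebra K₀ (L (GH (M * q) H))] {T : L (GH (M * q) H)} (hT : ∀ g, X.gal g T = T)
    (hc : ∀ g : L (GH (M * q) H) ≃ₐ[K₀] L (GH (M * q) H), ∃ ε : SL(2, ℤ),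
      ((M * q : ℕ) : ℤ) ∣ ε 1 0 ∧ ∀ x, ((g x : L (GH (M * q) H)) : FF) = X.pg ε x)
    {σ : GQ} (hσ : S.Inert P σ) {u : (ZMod (M * q))ˣ} (hu : IsCy (M * q) σ u) {δ : SL(2, ℤ)}
    (hδ : In.Dm (M * q) u δ) {s : L (GH (M * q) H) ≃ₐ[K₀] L (GH (M * q) H)}
    (hs : ∀ x, ((s x : L (GH (M * q) H)) : FF) = X.pg δ x) :
    I.Inr (Qv A) T ![side w AlgEquiv.refl _, side w (Wq X hq.pos γ) _]
      (resR (X.gal σ) (gal_mem_iff X hX.hec3 h hn σ)) s := by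
  obtain ⟨i1, i2⟩ := hD.ine σ hσ
  obtain ⟨g1, g2⟩ := hG A O w hD.on hD.inf σ i1
  have h0 : 0 < M := Nat.pos_of_mul_pos_right h.pos
  have s1 : (M : ℤ) ∣ δ 1 1 - 1 := dvd_of_cast (by
    rw [← um_coe (dvd_mul_right M q) hδ.2, cy_low h0 hq hM hP hl hσ hu]
    simp)
  have key : ∀ y : L (GH (M * q) H), Wq X hq.pos γ (X.gal σ y) =
      X.gal σ (Wq X hq.pos γ (s y : L (GH (M * q) H))) := fun y => by
    rw [hs]
    exact (gal_Wq X hq.pos hE hX.galx hX.grp hC hS hX.hec3 hγ h hn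
      (cyc_of h.pos hu hδ.2) hδ.1 s1 (by rw [sub_self]; exact dvd_zero _) y.2).symm
  refine ⟨⟨(σ : Qb ≃+* Qb), fun c => Subtype.ext (hX.galx.2.1 σ c), i1⟩, Subtype.ext (hT σ),
    fun g y => Subtype.ext ?_, fun y => g1 y, fun y hy => g2 i2 y hy, fun y => ?_, fun y hy => ?_⟩
  · obtain ⟨ε, e0, e1⟩ := hc g
    rw [resR_coe, e1, e1, resR_coe]
    exact (hX.hec3 _ H h hn y y.2 σ).2.1 ε e0
  · change w (Wq X hq.pos γ (X.gal σ y)) = w (Wq X hq.pos γ (s y : L (GH (M * q) H)))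
    rw [key, g1]
  · change w (Wq X hq.pos γ (X.gal σ y - (s y : L (GH (M * q) H)))) < 1
    rw [map_sub, key]
    exact g2 i2 _ hy

/-- **inertia at `q`** -/
theorem igu_of {X : Mdl} (hX : MIn X) (hE : M.EXP) (hC : CF) (hS : SHIM X) (hAV : AVE) (hW : WINF)
    (hG : WGAL X) (hI : I.I1B) (hN : NOD X) : IGUm X := by
  intro M q m H hL hn hq hM hm hs _ A P hP hl σ hσ s hcy τ hτ y z w' hz hw
  have h0 : 0 < M := hL.pos
  have h := lv_mul hL hq.pos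
  obtain ⟨B, O, w, hD⟩ := dic hAV hW hq hP hl
  obtain ⟨γ, hγ, hγ1⟩ := exists_AL (M := M) (q := q)
    (Nat.isCoprime_iff_coprime.2 (hq.coprime_iff_not_dvd.2 hM).symm)
  have h' := neg_up (neg_low hn) q
  haveI : CFF Qb (L (GH (M * q) (up (Igu.low H) q))) := 
    hX.cffs _ (mid hX.grp h h').hi (fidx hX.grp h h')
  obtain ⟨T, fT, v, S, hT, a1, a2, a3, a4, a5, a6, a7⟩ :=
    hN M q hq (Igu.low H) hL (neg_low hn) hM P B O w hD γ hγ hγ1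
  letI := algL (le_up H)
  haveI := towerV B (le_up H)
  obtain ⟨fd, ga, c1, c2, c3, c4, c5⟩ := cover hX hL hn hq hM hs
  obtain ⟨σ₀, hσ₀, hcy₀⟩ := ex_inert h0 hq hM hP hl hτ
  obtain ⟨δ, hδ⟩ := In.ex_dm h.pos.ne' s
  obtain ⟨δ₀, hδ₀⟩ := In.ex_dm h.pos.ne' τ
  obtain ⟨t, ht⟩ := c4 δ (hδ.mem.2 (by
    show ZMod.unitsMap _ s ∈ Igu.low H
    rw [cy_low h0 hq hM hP hl hσ hcy]; exact one_mem _))
  obtain ⟨t₀, ht₀⟩ := c4 δ₀ (hδ₀.mem.2 (by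
    show ZMod.unitsMap _ τ ∈ Igu.low H
    rw [hτ]; exact one_mem _))
  have hc := fun g => (c5 g).imp fun ε (e : _ ∧ _) => And.intro e.1.1 e.2
  have n1 : ¬ q ∣ Module.finrank (L (GH (M * q) (up (Igu.low H) q))) (L (GH (M * q) H)) := fun d =>
    absurd (Nat.le_of_dvd (Nat.sub_pos_of_lt hq.one_lt) (d.trans c1))
      (not_le.2 (Nat.sub_lt hq.pos one_pos))
  have main := hI (Qv B) (L (GH (M * q) (up (Igu.low H) q))) (L (GH (M * q) H)) T v S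
    ![side w AlgEquiv.refl _, side w (Wq X hq.pos γ) _] m _ _ t t₀ (hD.ne _ n1) c2 c3 a1 a2
    a3 a4 a5 (Fin.forall_fin_two.2 ⟨fun y => (a6 y).symm, fun y => (a7 y).symm⟩)
    (hD.ne _ hm)
    (inr hX hE hC hS hG h hn hq hM hP hl hD hγ (T := algebraMap _ _ T) hT hc hσ hcy hδ ht)
    (inr hX hE hC hS hG h hn hq hM hP hl hD hγ (T := algebraMap _ _ T) hT hc hσ₀ hcy₀ hδ₀ ht₀)
  obtain ⟨-, -, -, k1, -⟩ := hX.comm _ H h hn m A
  rw [hw, hz]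
  exact reorder (k1 τ σ) ((Commute.all τ s).map A.dia) (k1 s σ)
    (Igu.to_cl (s := t.toRingEquiv) (τ := t₀.toRingEquiv) (A.act_rep σ) (A.dia_rep s δ hδ.1 hδ.2)
      (A.dia_rep τ δ₀ hδ₀.1 hδ₀.2) (fun _ => rfl) ht ht₀ main) y

theorem nod_of {X : Mdl} (hX : MIn X) (hK : KRM X) (hN : I.N0) : NOD X := by
  intro M q hq H h hn hM P A O w hD γ hγ hγ1 _
  have m := mid hX.grp h hn
  haveI : CFF Qb (L (GH M H)) := hX.cffs _ m.hi (fidx hX.grp h hn)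
  letI := algL (up_le (q := q) H)
  haveI := towerV A (up_le (q := q) H)
  obtain ⟨f1, f2, u', hu⟩ := hK M q hq H h hn hM P A O w hD γ hγ hγ1
    (up_le H) m.hi (resA A (Wq X hq.pos γ) (Wq_mem_iff X hq.pos hγ (split_up H))) fun _ => rfl
  haveI f3 : FiniteDimensional (Qv A)⟮algebraMap _ (L (GH (M * q) (up H q))) (la X m.hi)⟯
    (L (GH (M * q) (up H q))) := finite_adjoin_map
  obtain ⟨v, S, t, n⟩ := hN _ _ _ _ _ _ _ _ hu
  refine ⟨_, f3, v, S, fun g => ?_, t.full, n, t.ne, t.all, t.sep, fun y => by rw [t.v0]; rfl, t.v1⟩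
  change X.gal g ((2 - X.t) / 4) = (2 - X.t) / 4
  rw [map_div₀, map_sub, map_ofNat, map_ofNat, hX.galx.2.2.1]

open Vale.Agent.P027M.M.Hec in
theorem inI2 (X : Mdl) (hE : M.EXP) (hG : GALX X) (hR : GRP) (hC : CF) (hS : SHIM X) (h3 : HEC3 X)
    (hSG : SERG) (hN : NORMF X) (hAV : AVE) (hWI : WINF) (hWG : WGAL X) (hK : KRM X)
    (k1 : KRO1 X) (k2 : KRO2 X) (n0 : I.N0) (i2 : I.I2A) : I2m X := by
  intro M q m hq H hM okn hqM hq3 d hd h _ _ Ac nm W hnm hW φ ⟨P, hP, hqP, hφ⟩ u hu y hy1 hy2 z hz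
  have m0 : m ≠ 0 := by rintro rfl; exact hq3 (dvd_zero q)
  have hc : IsCoprime (M : ℤ) q :=
    Nat.isCoprime_iff_coprime.2 ((Nat.Prime.coprime_iff_not_dvd hq).2 hqM).symm
  obtain ⟨m1, m2⟩ := mid_up hR hq.pos hM okn
  have hN' := m1.lv
  have ng := neg_up okn q
  have hd' : (M : ℤ) ∣ ((M * q : ℕ) : ℤ) := Int.natCast_dvd_natCast.2 (dvd_mul_right M q)
  obtain ⟨γ, hγ, hγ1⟩ := exists_AL hc
  have hγ2 := mem_GH_one H hγ.c hγ1
  obtain ⟨A, O, w, dc⟩ := dic hAV hWI hq hP hqP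
  obtain ⟨iso, fr⟩ := dc.fro φ hφ
  obtain ⟨δ, δ0, δ1⟩ := exists_mat hN'.pos u
  obtain ⟨D, D0, D1, -, eD⟩ := Wq_sq X hq.pos hγ
  obtain ⟨ε, ε0, eε⟩ := Wq_change X hq.pos hc hγ (AL.of_isAL hd)
  let W₁ := resA A (Wq X hq.pos γ) (Wq_mem_iff X hq.pos hγ (split_up H))
  let Dm := resA A (X.pg δ) (pg_mem_iff X (H := up H q) δ0)
  let D' := resA A (X.pg δ) (pg_mem_iff X (H := H) (hd'.trans δ0))
  let φ₀ := resR (X.gal φ) (gal_mem_iff X h3 hN' ng φ)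
  let φ' := resR (X.gal φ) (gal_mem_iff X h3 hM okn φ)
  let E₀ := resA A (X.pg ε) (pg_mem_iff X (H := up H q) ε0)
  let E' := resA A (X.pg ε) (pg_mem_iff X (H := H) (hd'.trans ε0))
  let s : Qv A ≃+* Qv A := (φ : Qb ≃+* Qb)
  letI := algL h
  haveI := towerV A h
  obtain ⟨_, _, u', kr⟩ := hK M q hq H hM okn hqM P A O w dc γ hγ hγ1 h m1.hi W₁ fun _ => rfl
  haveI : FiniteDimensional (Qv A)⟮algebraMap (L (GH M H)) (L (GH (M * q) (up H q)))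
    (la X m1.hi)⟯ (L (GH (M * q) (up H q))) := finite_adjoin_map
  obtain ⟨v, S, tw, nod⟩ := n0 (Qv A) _ _ _ q W₁ u' _ kr
  obtain ⟨x, hx, rfl⟩ := cl_surj y
  have v0 : ∀ y : L (GH (M * q) (up H q)), (v 0).1 y = w y := fun y => by rw [tw.v0]; rfl
  have ww : ∀ y, W₁ (W₁ (Dm y)) = y := fun y => Subtype.ext (by
    change Wq X hq.pos γ (Wq X hq.pos γ (X.pg δ y)) = y
    rw [eD, pg_mul]
    refine (mem_L_iff X).1 y.2 _ (mem_up.2 ⟨?_, mem_GH_one H ?_ ?_⟩)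
    · rw [mul_ent]; exact dvd_add (δ0.mul_right _) (D0.mul_left _)
    · rw [mul_ent]; exact hd'.trans (dvd_add (δ0.mul_right _) (D0.mul_left _))
    · have e1 : (M : ℤ) ∣ δ 1 1 - q := dvd_of_cast (by
        rw [← um_coe (dvd_mul_right M q) δ1, hu, Int.cast_natCast])
      obtain ⟨a, ha⟩ := e1
      obtain ⟨b, hb⟩ := D1
      obtain ⟨c, hc⟩ := hγ1
      obtain ⟨e, he⟩ := hd'.trans δ0
      exact ⟨e * D 0 1 + a * D 1 1 + b + c * (γ 1 1 + 1), by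
        rw [mul_ent]
        linear_combination D 0 1 * he + D 1 1 * ha + hb + (γ 1 1 + 1) * hc⟩)
  have fT : ∀ y : L (GH (M * q) (up H q)), X.pg ModularGroup.T y = y := fun y =>
    (mem_L_iff X).1 y.2 _ (by simpa using T_mem (up H q) 1)
  refine I2.to_cl (Ac.act_rep φ) (Ac.dia_rep u δ δ0 δ1) (φ₀ : _ →* _) (Dm : _ →* _) (fun _ => rfl)
    (fun _ => rfl) (q ^ 2) x hx (fun a ha => ?_) hz
  refine i2 (Qv A) _ _ (la X m1.hi) v S m q W₁ Dm D' φ₀ φ' s kr.full kr.good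
    tw.full nod tw.all tw.sep (dc.ne _ hq3) hq.ne_zero
    ⟨fun c => Subtype.ext (hG.2.1 φ c), iso⟩ (fun μ hμ => ?_) (fun _ => rfl) (Subtype.ext ?_)
    (fun _ => rfl) (Subtype.ext ?_) ww (fun y => Subtype.ext ?_) (fun y => Subtype.ext ?_)
    (fun y => by rw [tw.v1, tw.v0]) (fun y => ?_) (fun y => ?_) (by rw [tw.v0]; exact tw.den) tw.pl
    (fun f hf => ?_) (fun y hy => ?_) x x.ne_zero hx ?_ ?_ a ha
  · have n1 : ‖μ‖ = 1 := (pow_eq_one_iff_of_nonneg (norm_nonneg μ) m0).1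
      (by rw [← norm_pow, hμ, norm_one])
    exact I2.root_eq (dc.ne _ hq3) (by rw [← map_pow, hμ, map_one])
      (by rw [← pow_mul, mul_comm, pow_mul, hμ, one_pow]) (fr μ n1.le)
  · change X.gal φ ((2 - X.t) / 4) = (2 - X.t) / 4
    rw [map_div₀, map_sub, hG.2.2.1, map_ofNat, map_ofNat]
  · refine (mem_L_iff X).1 (la X (le_refl G0)).2 δ ?_
    rw [CongruenceSubgroup.Gamma0_mem]
    exact (ZMod.intCast_zmod_eq_zero_iff_dvd _ 4).2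
      ((Int.natCast_dvd_natCast.2 hN'.four).trans δ0)
  · exact gal_Wq_up X hq.pos hE hG hR hC hS h3 hSG hc hγ hN' ng φ y.2
  · exact (h3 _ _ hN' ng y y.2 φ).2.1 δ δ0
  · rw [v0, v0]
    exact (hWG A O w dc.on dc.inf φ iso).1 y
  · rw [tw.v0, ← kr.wwu, ww]
  · rw [v0] at hf ⊢
    have := k1 A O w dc.on dc.inf q hq dc.lt φ fr f (fT (algebraMap _ _ f)) hf
    rw [← Wq_low X hq.pos hγ hγ1 f.2] at this
    exact this
  · rw [v0] at hy ⊢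
    have e1 := norm_up X hR hN hq hc hM okn h hγ hγ2 (W₁.symm y)
    have e2 : Wq X hq.pos γ (W₁.symm y : L (GH (M * q) (up H q))) = y :=
      congrArg Subtype.val (W₁.apply_symm_apply y)
    have y0 : W₁.symm y ≠ 0 := fun e => by
      rw [(W₁.symm.map_eq_zero_iff).1 e] at hy
      simp at hy
    have := k2 A O w dc.on dc.inf q hq dc.lt φ fr _ (fT y) hy
    rw [← mul_div_mul_left _ _ (fun e => y0 (Subtype.ext e)), ← e2, ← e1, e2] at this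
    exact this
  · obtain ⟨b, e⟩ := hnm x hx
    rw [e, cl_eq_zero] at hy1
    obtain ⟨c, hc⟩ := mem_powU'.1 hy1
    exact ⟨c, hc.symm⟩
  · obtain ⟨x', hx', e1, e2⟩ := hW x hx
    obtain ⟨b, e⟩ := hnm x' hx'
    replace hy2 := ((congrArg nm e2).symm.trans hy2)
    rw [e, cl_eq_zero] at hy2
    obtain ⟨c, hc⟩ := mem_powU'.1 hy2
    have e3 : E₀ (W₁ x) = x' := Subtype.ext (by
      rw [e1]
      change X.pg ε (Wq X hq.pos γ x) = Wq X hq.pos d x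
      rw [eε, Wq_pg X hq.pos hγ ε0 (x : L (GH (M * q) (up H q))).2])
    refine ⟨E'.symm c, ?_⟩
    rw [Algebra.norm_eq_of_equiv_equiv E'.toRingEquiv E₀.toRingEquiv (RingHom.ext fun _ => rfl)]
    change E'.symm (Algebra.norm _ (E₀ (W₁ x))) = _
    rw [e3, ← map_pow, hc]
    rfl

/-- **I1 for every `m`** -/
theorem igum (X : Mdl) : IGUm X :=
  igu_of (j_min X) M.exp cf2 (x_shim X) ave g_winf (g_wgal X) I.i1b'
    (nod_of (j_min X) (j_krm X) I.n0')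

/-- **I2 for every `m`** -/
theorem i2m (X : Mdl) : I2m X :=
  inI2 X M.exp (x_galx X) grp cf2 (x_shim X) (x_hec3 X) serg (x_normf X) ave g_winf (g_wgal X)
    (j_krm X) (j_kro1 X) (j_kro2 X) I.n0' I.i2a'

end Vale.Agent.P022D.I12
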