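import Vale.Agent.P022D.I.I12

/-! # P022 route D: the full quadratic relation for inertia at a prime which divides the level
exactly -/

set_option linter.all false

open scoped MatrixGroups IntermediateField

noncomputable section

namespace Vale.Agent.P022D.I12

open NumberField Vale.Agent.P022 Vale.Agent.P022.H218.L3 Vale.Agent.P022.H231.L3
  Vale.Agent.P019P P025H373 P025H746 P025H492 P025H816 Vale.Agent.P027M Vale.Agent.P027M.M
  Vale.Agent.P027M.TW Vale.Agent.P027M.G Vale.Agent.P027M.J Vale.Agent.P027M.J.Igu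

section abs

variable {C : Type} [NontriviallyNormedField C] [IsUltrametricDist C] [IsAlgClosed C] [CharZero C]

/-- the semistable case: `(σ - 1) ^ 2 = 0` -/
theorem ss {K : Type} [Field K] [Algebra C K] [CFF C K] {T : K} [FiniteDimensional C⟮T⟯ K]
    {S : Finset (I.Br C T)} (hF : I.Full C T) (hS : I.Nodal C T S) {m : ℕ} (hm : (m : kC C) ≠ 0)
    {σ : K ≃+* K} {c : C ≃+* C} (h : I.Semi C σ c) (hT : σ T = T)
    (h1 : ∀ (u : I.WW C T) y, u.1 (σ y) = u.1 y)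
    (h2 : ∀ (u : I.WW C T) y, u.1 y ≤ 1 → u.1 (σ y - y) < 1) (u₀ : I.WW C T) {f : K} (hf0 : f ≠ 0)
    (hf : ∀ P : Plk C K, (m : ℤ) ∣ ord P f) :
    ∃ z : K, z ≠ 0 ∧ σ (σ f / f) = σ f / f * z ^ m := by
  have hm0 : m ≠ 0 := by rintro rfl; simp at hm
  obtain ⟨z, hz, e⟩ := I.node' C K T hF S hS m 1 σ c hm h hT
    (fun b _ => I.I1b.tw_self b (h1 b.w) (h2 b.w)) (fun μ hμ => by
      have n1 : ‖μ‖ = 1 := (pow_eq_one_iff_of_nonneg (norm_nonneg μ) hm0).1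
        (by rw [← norm_pow, hμ, norm_one])
      have := h2 u₀ (algebraMap C K μ) (by rw [u₀.1.ext']; exact n1.le)
      rw [h.1, ← map_sub, u₀.1.ext'] at this
      rw [pow_one]
      exact I2.root_eq hm (by rw [← map_pow, hμ, map_one]) hμ this) (σ f / f)
    (I.I1b.dvd_div ((map_ne_zero σ).2 hf0) hf0 (h.dvd_ord hf) hf)
    fun u => I.I1b.triv_div h u (h2 u) hm0 hf0
  exact ⟨z, hz, by rw [pow_one] at e; exact e⟩

variable {K₀ K : Type} [Field K₀] [Algebra C K₀] [CFF C K₀] [Field K] [Algebra C K] [CFF C K]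
  [Algebra K₀ K] [IsScalarTower C K₀ K] [FiniteDimensional K₀ K] [IsGalois K₀ K]

/-- a function with divisor divisible by `m` is, up to `m`-th powers, one with divisor divisible
by `d m` -/
theorem ex_div {d m : ℕ} (hd : d ≠ 0) (hm : m ≠ 0) {f : K} (hf0 : f ≠ 0)
    (hf : ∀ P : Plk C K, (m : ℤ) ∣ ord P f) :
    ∃ f' y : K, f' ≠ 0 ∧ y ≠ 0 ∧ (∀ P : Plk C K, ((d * m : ℕ) : ℤ) ∣ ord P f') ∧ f = f' * y ^ m := by
  have hf' : Units.mk0 f hf0 ∈ divU C K m := hf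
  have hx := P027M.K.nsmul_tP hm hf'
  obtain ⟨x', hx'⟩ := P027M.K.pic_div (n := d) (Nat.cast_ne_zero.2 hd) hm hx
  obtain ⟨f', a1, a2⟩ := P027M.K.exists_tP (k := C) (F := K) (mul_ne_zero hd hm) (x := x')
    (by rw [mul_comm, mul_smul, hx', hx])
  have a3 : f' ∈ divU C K m := fun P => (Int.natCast_dvd_natCast.2 (dvd_mul_left m d)).trans (a1 P)
  have a4 := P027M.K.tP_level hd hm a1
  rw [a2, hx', eq_comm, P027M.K.tP_eq_iff hm a3 hf'] at a4
  obtain ⟨y, hy⟩ := mem_powU.1 a4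
  refine ⟨f', y, f'.ne_zero, y.ne_zero, a1, ?_⟩
  have := congrArg Units.val hy
  rw [Units.val_pow_eq_pow_val, Units.val_mul, Units.val_inv_eq_inv_val, Units.val_mk0] at this
  rw [this, mul_inv_cancel_left₀ f'.ne_zero]

/-- **the full relation** `(σ - s) (σ - 1) = 0` -/
theorem i1f {T : K₀} [FiniteDimensional C⟮T⟯ K₀] {v : Fin 2 → I.WW C T} {S : Finset (I.Br C T)}
    {w : Fin 2 → NV C K} {m : ℕ} {σ : K ≃+* K} {σ' : K₀ ≃+* K₀} {s : K ≃ₐ[K₀] K}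
    (hd : ((Module.finrank K₀ K : ℕ) : kC C) ≠ 0) (hu : IsUnr C K₀ K)
    (hcy : IsCyclic (K ≃ₐ[K₀] K)) (hF : I.Full C T) (hS : I.Nodal C T S) (hne : v 0 ≠ v 1)
    (hall : ∀ w, ∃ i, w = v i) (hsep : ∀ b b' : I.Br C T, b.w = b'.w → I.Glue b b' → b = b')
    (hw : ∀ i y, w i (algebraMap K₀ K y) = (v i).1 y) (hm : (m : kC C) ≠ 0)
    (h : I.Inr C (algebraMap K₀ K T) w σ s)
    (h₀ : ∀ g : K ≃ₐ[K₀] K, ∃ σ₀, I.Inr C (algebraMap K₀ K T) w σ₀ g)
    (hσ : ∀ y, algebraMap K₀ K (σ' y) = σ (algebraMap K₀ K y)) (f : K) (hf0 : f ≠ 0)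
    (hf : ∀ P : Plk C K, (m : ℤ) ∣ ord P f) :
    ∃ z : K, σ (σ f / f) / s (σ f / f) = z ^ m := by
  classical
  have hm0 : m ≠ 0 := by rintro rfl; simp at hm
  have hd0 : Module.finrank K₀ K ≠ 0 := Module.finrank_pos.ne'
  have hdm : ((Module.finrank K₀ K * m : ℕ) : kC C) ≠ 0 := by
    rw [Nat.cast_mul]; exact mul_ne_zero hd hm
  obtain ⟨f', y, f0, y0, hf', rfl⟩ := ex_div hd0 hm0 hf0 hf
  obtain ⟨c, hsemi⟩ := h.semi
  have inj := (algebraMap K₀ K).injective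
  have semi' : I.Semi C σ' c := ⟨fun a => inj (by
    rw [hσ, ← IsScalarTower.algebraMap_apply, ← IsScalarTower.algebraMap_apply, hsemi.1]), hsemi.2⟩
  have N0 : Algebra.norm K₀ f' ≠ 0 := Algebra.norm_ne_zero_iff.2 f0
  obtain ⟨z₀, z0, e0⟩ := ss hF hS hdm semi' (inj (by rw [hσ, h.fix])) (fun u y => by
      obtain ⟨i, rfl⟩ := hall u
      rw [← hw, ← hw, hσ]
      fin_cases i
      · exact h.n0 _
      · exact (h.n1 _).trans (congrArg (w 1) (s.commutes y))) (fun u y hy => by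
      obtain ⟨i, rfl⟩ := hall u
      rw [← hw] at hy ⊢
      rw [map_sub, hσ]
      fin_cases i
      · exact h.t0 _ hy
      · have := h.t1 (algebraMap K₀ K y) (by rw [s.commutes]; exact hy)
        rw [s.commutes] at this
        exact this) (v 0) N0
    (P027M.K.nU_mem (K := K₀) (g := Units.mk0 f' f0) (n := Module.finrank K₀ K * m) hf')
  choose σ₀ hσ₀ using h₀
  choose z hz ez using fun g => I.i1b' C K₀ K T v S w (Module.finrank K₀ K * m) σ (σ₀ g) s g hd hu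
    hcy hF hS hne hall hsep hw hdm h (hσ₀ g) f' f0 hf' _ _ rfl rfl
  have nσ : ∀ x : K, Algebra.norm K₀ (σ x) = σ' (Algebra.norm K₀ x) := fun x => inj (by
    rw [hσ, Algebra.norm_eq_prod_automorphisms, Algebra.norm_eq_prod_automorphisms, map_prod]
    exact Finset.prod_congr rfl fun g _ => (h.com g x).symm)
  have ns : ∀ x : K, Algebra.norm K₀ (s x) = Algebra.norm K₀ x := fun x =>
    Algebra.norm_eq_of_algEquiv s x
  have nd : ∀ a b : K, Algebra.norm K₀ (a / b) = Algebra.norm K₀ a / Algebra.norm K₀ b :=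
    fun a b => by rw [div_eq_mul_inv, map_mul, Algebra.norm_inv, div_eq_mul_inv]
  have A0 : σ' (Algebra.norm K₀ f') / Algebra.norm K₀ f' ≠ 0 :=
    div_ne_zero ((map_ne_zero σ').2 N0) N0
  have e1 : Algebra.norm K₀ (σ (σ f' / f') / s (σ f' / f')) = z₀ ^ (Module.finrank K₀ K * m) := by
    rw [nd, nσ, ns, nd, nσ, e0, mul_div_cancel_left₀ _ A0]
  have e2 := congrArg (algebraMap K₀ K) e1
  rw [Algebra.norm_eq_prod_automorphisms, Finset.prod_congr rfl fun g _ => ez g,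
    Finset.prod_mul_distrib, Finset.prod_const, Finset.prod_pow, Finset.card_univ,
    ← Nat.card_eq_fintype_card, IsGalois.card_aut_eq_finrank, map_pow] at e2
  have Z0 : ∏ g, z g ≠ 0 := Finset.prod_ne_zero_iff.2 fun g _ => hz g
  have z1 : algebraMap K₀ K z₀ ≠ 0 := (map_ne_zero _).2 z0
  obtain ⟨a, ha⟩ := P027M.K.const_of_pow_eq_one (k := C) hd0
    (z := σ (σ f' / f') / s (σ f' / f') * (∏ g, z g) ^ m / algebraMap K₀ K z₀ ^ m) (by
      rw [div_pow, mul_pow, ← pow_mul, ← pow_mul, mul_comm m, e2, div_self (pow_ne_zero _ z1)])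
  obtain ⟨b, rfl⟩ := IsAlgClosed.exists_pow_nat_eq a (Nat.pos_of_ne_zero hm0)
  refine ⟨algebraMap C K b * algebraMap K₀ K z₀ / (∏ g, z g) * (σ (σ y / y) / s (σ y / y)), ?_⟩
  rw [div_eq_iff (pow_ne_zero _ z1), ← eq_div_iff (pow_ne_zero _ Z0), map_pow] at ha
  rw [mul_pow, div_pow, mul_pow, ← ha, map_mul, mul_div_mul_comm, map_mul, map_mul,
    mul_div_mul_comm, map_pow, ← div_pow, map_pow, map_pow, ← div_pow]

end abs

/-- the quadratic relation for inertia at `q`, any `m` prime to `q` -/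
def IGUf (X : Mdl) : Prop := ∀ (M q m : ℕ) (H : Subgroup (ZMod (M * q))ˣ), Lv M → -1 ∈ H →
  q.Prime → ¬ q ∣ M → ¬ q ∣ m → Split M q H →
  ∀ [CFF Qb (L (GH (M * q) H))] (A : Act X (M * q) H m)
  (P : Ideal (𝓞 Qb)), P.IsPrime → (q : 𝓞 Qb) ∈ P → ∀ σ, S.Inert P σ → ∀ s, IsCy (M * q) σ s →
  ∀ y z, z = A.act σ y - y → A.act σ z = A.dia s z

theorem to_clf {Γ : Subgroup SL(2, ℤ)} [CFF Qb (L Γ)] {m : ℕ} {σ s : L Γ ≃+* L Γ}
    {a b : HA Qb (L Γ) m →+ HA Qb (L Γ) m} {σ' s' : FF → FF} (ha : Rep σ' a) (hb : Rep s' b)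
    (e1 : ∀ x, ((σ x : L Γ) : FF) = σ' x) (e2 : ∀ x, ((s x : L Γ) : FF) = s' x)
    (h : ∀ f : L Γ, f ≠ 0 → (∀ P : Plk Qb (L Γ), (m : ℤ) ∣ ord P f) →
      ∃ z : L Γ, σ (σ f / f) / s (σ f / f) = z ^ m) (y : HA Qb (L Γ) m) :
    a (a y - y) = b (a y - y) := by
  obtain ⟨f, hf, rfl⟩ := cl_surj y
  obtain ⟨f1, hf1, p1, q1⟩ := ha f hf
  rw [q1, ← cl_div]
  obtain ⟨f2, hf2, p2, q2⟩ := ha _ (div_mem hf1 hf)
  obtain ⟨f3, hf3, p3, q3⟩ := hb _ (div_mem hf1 hf)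
  have r1 : (f1 : L Γ) = σ f := Subtype.ext (p1.trans (e1 _).symm)
  have r2 : (f2 : L Γ) = σ (f1 / f : (L Γ)ˣ) := Subtype.ext (p2.trans (e1 _).symm)
  have r3 : (f3 : L Γ) = s (f1 / f : (L Γ)ˣ) := Subtype.ext (p3.trans (e2 _).symm)
  obtain ⟨z, hz⟩ := h f f.ne_zero hf
  rw [q2, q3, cl_eq, mem_powU']
  exact ⟨z, by rw [Units.val_div_eq_div_val, r2, r3, Units.val_div_eq_div_val, r1, hz]⟩

theorem iguf_of {X : Mdl} (hX : MIn X) (hE : M.EXP) (hC : CF) (hS : SHIM X) (hAV : AVE)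
    (hW : WINF) (hG : WGAL X) (hN : NOD X) : IGUf X := by
  intro M q m H hL hn hq hM hm hs _ A P hP hl σ hσ s hcy y z hz
  have h0 : 0 < M := hL.pos
  have h := lv_mul hL hq.pos
  obtain ⟨B, O, w, hD⟩ := dic hAV hW hq hP hl
  obtain ⟨γ, hγ, hγ1⟩ := exists_AL (M := M) (q := q)
    (Nat.isCoprime_iff_coprime.2 (hq.coprime_iff_not_dvd.2 hM).symm)
  have h' := neg_up (neg_low hn) q
  haveI : CFF Qb (L (GH (M * q) (up (Igu.low H) q))) :=
    hX.cffs _ (mid hX.grp h h').hi (fidx hX.grp h h')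
  obtain ⟨T, fT, v, S, hT, a1, a2, a3, a4, a5, a6, a7⟩ :=
    hN M q hq (Igu.low H) hL (neg_low hn) hM P B O w hD γ hγ hγ1
  letI := algL (le_up H)
  haveI := towerV B (le_up H)
  obtain ⟨fd, ga, c1, c2, c3, c4, c5⟩ := cover hX hL hn hq hM hs
  obtain ⟨δ, hδ⟩ := In.ex_dm h.pos.ne' s
  obtain ⟨t, ht⟩ := c4 δ (hδ.mem.2 (by
    show ZMod.unitsMap _ s ∈ Igu.low H
    rw [cy_low h0 hq hM hP hl hσ hcy]; exact one_mem _))
  have hc := fun g => (c5 g).imp fun ε (e : _ ∧ _) => And.intro e.1.1 e.2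
  have n1 : ¬ q ∣ Module.finrank (L (GH (M * q) (up (Igu.low H) q))) (L (GH (M * q) H)) := fun d =>
    absurd (Nat.le_of_dvd (Nat.sub_pos_of_lt hq.one_lt) (d.trans c1))
      (not_le.2 (Nat.sub_lt hq.pos one_pos))
  have main := i1f (C := Qv B) (K₀ := L (GH (M * q) (up (Igu.low H) q))) (K := L (GH (M * q) H))
    (T := T) (v := v) (S := S) (w := ![side w AlgEquiv.refl _, side w (Wq X hq.pos γ) _]) (m := m)
    (σ' := resR (X.gal σ) (gal_mem_iff X hX.hec3 h h' σ)) (s := t) (hD.ne _ n1) c2 c3 a1 a2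
    a3 a4 a5 (Fin.forall_fin_two.2 ⟨fun y => (a6 y).symm, fun y => (a7 y).symm⟩) (hD.ne _ hm)
    (inr hX hE hC hS hG h hn hq hM hP hl hD hγ (T := algebraMap _ _ T) hT hc hσ hcy hδ ht)
    (fun g => by
      obtain ⟨ε, ⟨m1, u, ⟨a, ha, e1⟩, m2⟩, e⟩ := c5 g
      obtain ⟨σ₀, hσ₀, hcy₀⟩ := ex_inert h0 hq hM hP hl (τ := u / a)
        (by rw [map_div, e1, div_self'])
      obtain ⟨δ₀, hδ₀⟩ := In.ex_dm h.pos.ne' (u / a)
      have mm : ε * δ₀⁻¹ ∈ GH (M * q) H := (In.Dm.mul (u := u) ⟨m1, m2⟩ hδ₀.inv).mem.2 (by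
        rw [inv_div, mul_div_cancel]
        exact ha)
      exact ⟨_, inr hX hE hC hS hG h hn hq hM hP hl hD hγ (T := algebraMap _ _ T) hT hc hσ₀ hcy₀
        hδ₀ fun x => by
          rw [e, ← inv_mul_cancel_right ε δ₀, In.pg_mul, In.pg_fix X mm x.2]⟩)
    fun _ => rfl
  rw [hz]
  exact to_clf (s := t.toRingEquiv) (A.act_rep σ) (A.dia_rep s δ hδ.1 hδ.2) (fun _ => rfl) ht main y

/-- **I1, full form**: `(σ - ⟨s⟩) (σ - 1) = 0` on Kummer classes modulo any `m` prime to `q` -/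
theorem iguf (X : Mdl) : IGUf X :=
  iguf_of (j_min X) M.exp cf2 (x_shim X) ave g_winf (g_wgal X) (nod_of (j_min X) (j_krm X) I.n0')

end Vale.Agent.P022D.I12
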